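import Vale.Agent.P280.N.C07

/-! P280, plan N: package D03 (lemmas). -/

open DirectSum Vale.Agent.P280.T Vale.Agent.P280.H127

namespace Vale.Agent.P280.N

variable {r : ℕ} {R : Type} [CommRing R] [IsDomain R] [Algebra ℂ R]
  {𝒜 : ℕ × (Fin r → ℤ) → Submodule ℂ R} [GradedAlgebra 𝒜]

omit [GradedAlgebra 𝒜] in
theorem D03.root0 {N : ℤ} {χ : Fin r → ℤ} {β : (Fin r → ℤ) →+ ℤ} {E F : VF R}
    (hr : Root 𝒜 N χ β E F) : Root0 𝒜 N χ β E F :=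
  ⟨hr.globE, hr.globF, hr.hvE, hr.hvF, hr.two, hr.br⟩

omit [GradedAlgebra 𝒜] in
theorem D03.E_ne {N : ℤ} {χ : Fin r → ℤ} {β : (Fin r → ℤ) →+ ℤ} {E F : VF R}
    (hr : Root 𝒜 N χ β E F) (hχ : Vx 𝒜 χ) : E ≠ 0 := by
  rintro rfl
  obtain ⟨y, hy⟩ := hχ.1
  refine hr.atE y hy fun h => ?_
  have : (0 : VF R) (iK h) = 0 := rfl
  rw [this]
  exact Val.zero

/-- the nonzero fields of top value with `β ω = 2 N` -/
theorem D03.uniq (H : Hyp 𝒜) {N : ℤ} (hN : 0 < N) (l : (Fin r → ℤ) →+ ℤ) {a : ℤ} (ha : 0 < a)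
    (hmax : ∀ ω, Wt 𝒜 ω → l ω ≤ a) {χ : Fin r → ℤ} {β : (Fin r → ℤ) →+ ℤ} {E F : VF R}
    (hr : Root 𝒜 N χ β E F) (hχ : Vx 𝒜 χ) (hla : l χ = a) {D : VF R} (hD : Glob D)
    {ω : Fin r → ℤ} (hDv : HV 𝒜 ω D) (hne : D ≠ 0) (hlω : l ω = a) (hβ : β ω = 2 * N) :
    ω = χ := by
  have key : ∀ g : (Fin r → ℤ) →+ ℤ, g ω ≤ g χ := by
    intro g
    obtain ⟨g2, h1, h2, -⟩ := D01.exists_combo H β g
    obtain ⟨l', k1, k2, k3⟩ := D01.exists_combo H l g2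
    have hm : ∀ ω', Wt 𝒜 ω' → l' ω' ≤ l' χ := by
      intro ω' hω'
      rcases lt_or_eq_of_le (hmax ω' hω') with h | h
      · exact (k1 ω' χ hω' hχ.1 (by rw [hla]; exact h)).le
      · have e1 := k2 ω' χ (by rw [hla]; exact h)
        by_cases h3 : ω' = χ
        · rw [h3]
        · have h4 : ω' ≠ -χ := by
            rintro rfl
            rw [map_neg, hla] at h
            omega
          have h5 := hr.bd ω' hω' h3 h4
          have h6 : β ω' < β χ := by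
            rw [hr.two]
            have := (abs_le.1 h5).2
            omega
          have h7 := h1 ω' χ hω' hχ.1 h6
          omega
    have h8 : 0 < l' χ := k3 χ hχ.1 (by rw [hla]; exact ha)
    have h9 := hull_field H l' h8.le hm hD hDv hne
    have h10 := k2 ω χ (by rw [hla]; exact hlω)
    have h11 := h2 ω χ (by rw [hr.two]; exact hβ)
    omega
  funext k
  have h1 := key (Pi.evalAddMonoidHom (fun _ => ℤ) k)
  have h2 := key (-(Pi.evalAddMonoidHom (fun _ => ℤ) k))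
  simp only [AddMonoidHom.neg_apply, Pi.evalAddMonoidHom_apply] at h1 h2
  omega

/-- the zeros are symmetric -/
theorem D03.sym (H : Hyp 𝒜) {N : ℤ} (hN : 0 < N) (l : (Fin r → ℤ) →+ ℤ) {a : ℤ} (ha : 0 < a)
    (hmax : ∀ ω, Wt 𝒜 ω → l ω ≤ a) {χ ψ : Fin r → ℤ} {β γ : (Fin r → ℤ) →+ ℤ} {E F E' F' : VF R}
    (hr : Root 𝒜 N χ β E F) (hr' : Root 𝒜 N ψ γ E' F') (hχ : Vx 𝒜 χ)
    (hla : l χ = a) (hlb : l ψ = a) (h0 : β ψ = 0) (h1 : γ χ = N) : False := by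
  have e1 := (root_pos H hN (D03.root0 hr') hr.globE hr.hvE (D03.E_ne hr hχ)).2.2.2.1 1
    (by rw [h1]; simp)
  simp only [Function.iterate_succ, Function.iterate_zero, Function.comp_apply, id_eq] at e1
  have g1 : Glob ⁅F', E⁆ := hr'.globF.lie hr.globE
  have v1 : HV 𝒜 (-ψ + χ) ⁅F', E⁆ := hr'.hvF.lie hr.hvE
  have e2 := (root_pos H hN (D03.root0 hr) g1 v1 e1).2.2.2.1 2
    (by rw [map_add, map_neg, h0, hr.two]; simp)
  simp only [Function.iterate_succ, Function.iterate_zero, Function.comp_apply, id_eq] at e2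
  have g2 : Glob ⁅F, ⁅F, ⁅F', E⁆⁆⁆ := hr.globF.lie (hr.globF.lie g1)
  have v2 : HV 𝒜 (-χ + (-χ + (-ψ + χ))) ⁅F, ⁅F, ⁅F', E⁆⁆⁆ := hr.hvF.lie (hr.hvF.lie v1)
  have h3 := hull_field H (-l) ha.le (fun ω hω => by
    have := neg_max H l ha hmax ω hω
    rw [AddMonoidHom.neg_apply]
    omega) g2 v2 e2
  simp only [AddMonoidHom.neg_apply, map_add, map_neg, hla, hlb] at h3
  omega

/-- `χ + χbar = ψ + ψbar` -/
theorem D03.addc (H : Hyp 𝒜) {N : ℤ} (hN : 0 < N) (l : (Fin r → ℤ) →+ ℤ) {a : ℤ} (ha : 0 < a)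
    (hmax : ∀ ω, Wt 𝒜 ω → l ω ≤ a) {χ χb ψ ψb : Fin r → ℤ} {βb γ γb : (Fin r → ℤ) →+ ℤ}
    {β : (Fin r → ℤ) →+ ℤ} {E F Eb Fb E' F' E'b F'b : VF R}
    (hr : Root 𝒜 N χ β E F) (hrb : Root 𝒜 N χb βb Eb Fb) (hr' : Root 𝒜 N ψ γ E' F')
    (hr'b : Root 𝒜 N ψb γb E'b F'b) (hχ : Vx 𝒜 χ) (hψb : Vx 𝒜 ψb)
    (hla : l χ = a) (hlb : l χb = a) (hlc : l ψ = a) (hld : l ψb = a)
    (h1 : γ χ = N) (h2 : βb χ = 0) (h3 : βb ψ = N) (h4 : γb χ = N) (h5 : γb χb = N)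
    (h6 : γb ψ = 0) : χ + χb = ψ + ψb := by
  have e1 := (root_pos H hN (D03.root0 hr') hr.globE hr.hvE (D03.E_ne hr hχ)).2.2.2.1 1
    (by rw [h1]; simp)
  simp only [Function.iterate_succ, Function.iterate_zero, Function.comp_apply, id_eq] at e1
  have g1 : Glob ⁅F', E⁆ := hr'.globF.lie hr.globE
  have v1 : HV 𝒜 (-ψ + χ) ⁅F', E⁆ := hr'.hvF.lie hr.hvE
  have e2 := (root_pos H hN (D03.root0 hrb) g1 v1 e1).2.2.2.2 1
    (by rw [map_add, map_neg, h2, h3]; simp)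
  simp only [Function.iterate_succ, Function.iterate_zero, Function.comp_apply, id_eq] at e2
  have g2 : Glob ⁅Eb, ⁅F', E⁆⁆ := hrb.globE.lie g1
  have v2 : HV 𝒜 (χb + (-ψ + χ)) ⁅Eb, ⁅F', E⁆⁆ := hrb.hvE.lie v1
  have h7 := D03.uniq H hN l ha hmax hr'b hψb hld g2 v2 e2
    (by simp only [map_add, map_neg, hla, hlb, hlc]; omega)
    (by simp only [map_add, map_neg, h4, h5, h6]; omega)
  rw [← h7]
  abel

end Vale.Agent.P280.N
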